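import Vale.Agent.P144Z.E3.Basic

/-! The test functions in the trivial gauge, and the abstract Taylor estimates. -/

namespace Vale.Agent.P144Z.E3

open Finset Matrix

variable {M : ℕ} [NeZero M]

/-- A combination of the test functions in the trivial gauge. -/
noncomputable def pf (x : Tor M) (c : Fin 2 → ℝ) (d : Fin 2 → Fin 2 → ℝ) (s : Tor M × Fin 4) : ℝ :=
  ∑ a, c a * kv a s.2 + ∑ b, ∑ i, d b i * ((crd (lft (s.1 - x)) i : ℝ) * kv b s.2 + mv b i s.2)

/-- The image of the linear test functions. -/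
noncomputable def kc (d : Fin 2 → Fin 2 → ℝ) : Fin 2 → ℝ :=
  ![-(tc / 2) * (d 0 1 + d 1 0), tc / 2 * (d 1 1 - d 0 0)]

/-- A combination of the test functions. -/
noncomputable def tf (A : Gauge M) (x : Tor M) (c : Fin 2 → ℝ) (d : Fin 2 → Fin 2 → ℝ) :
    Tor M × Fin 4 → ℝ := ∑ a, c a • tf0 A x a + ∑ b, ∑ i, d b i • tf1 A x b i

theorem ch_tf0 {A : Gauge M} (hA : IsSign A) (x : Tor M) (c : Fin 2 → ℝ) (d : Fin 2 → Fin 2 → ℝ) :
    ch A x (tf A x c d) 0 = pf x c d := by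
  funext s
  have h := trans_sq hA x s.1
  simp only [ch, pow_zero, one_mulVec, tf, pf, Pi.add_apply, Pi.smul_apply,
    smul_eq_mul, tf0, tf1, Fin.sum_univ_two]
  linear_combination (c 0 * kv 0 s.2 + c 1 * kv 1 s.2
    + (d 0 0 * ((crd (lft (s.1 - x)) 0 : ℝ) * kv 0 s.2 + mv 0 0 s.2)
    + d 0 1 * ((crd (lft (s.1 - x)) 1 : ℝ) * kv 0 s.2 + mv 0 1 s.2)
    + (d 1 0 * ((crd (lft (s.1 - x)) 0 : ℝ) * kv 1 s.2 + mv 1 0 s.2)
    + d 1 1 * ((crd (lft (s.1 - x)) 1 : ℝ) * kv 1 s.2 + mv 1 1 s.2)))) * h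

theorem crd_add {x y : Tor M} {R : ℕ} (hM : 2 * R + 3 ≤ M) (hy : tdist y x ≤ R) (i j : Fin 2) :
    crd (lft (y + uv M j - x)) i = crd (lft (y - x)) i + if i = j then 1 else 0 := by
  have h1 : (lft (y - x)).1.natAbs ≤ R := le_trans (le_max_left _ _) hy
  have h2 : (lft (y - x)).2.natAbs ≤ R := le_trans (le_max_right _ _) hy
  have e : y + uv M j - x = prj M (lft (y - x)) + uv M j := by
    rw [prj_lft]
    abel
  rw [e]
  generalize lft (y - x) = v at h1 h2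
  fin_cases j
  · change crd (lft (prj M v + uv M 0)) i = _
    rw [← prj_add_uv0, lft_prj]
    · fin_cases i <;> simp [crd]
    · rw [Int.abs_eq_natAbs]
      simp only
      omega
    · rw [Int.abs_eq_natAbs]
      simp only
      omega
  · change crd (lft (prj M v + uv M 1)) i = _
    rw [← prj_add_uv1, lft_prj]
    · fin_cases i <;> simp [crd]
    · rw [Int.abs_eq_natAbs]
      simp only
      omega
    · rw [Int.abs_eq_natAbs]
      simp only
      omega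

theorem dif_pf {x y : Tor M} {R : ℕ} (hM : 2 * R + 3 ≤ M) (hy : tdist y x ≤ R) (c : Fin 2 → ℝ)
    (d : Fin 2 → Fin 2 → ℝ) (j : Fin 2) (a : Fin 4) :
    dif j (pf x c d) (y, a) = ∑ b, d b j * kv b a := by
  simp only [dif, pf, crd_add hM hy, Fin.sum_univ_two]
  fin_cases j <;> simp <;> ring

theorem D1_pf {x y : Tor M} {R : ℕ} (hM : 2 * R + 3 ≤ M) (hy : tdist y x + 1 ≤ R) (c : Fin 2 → ℝ)
    (d : Fin 2 → Fin 2 → ℝ) (a : Fin 4) :
    (Dm (1 : Gauge M) *ᵥ pf x c d) (y, a) = pf x (kc d) 0 (y, a) := by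
  have h1 : ∀ j b, pf x c d (y + uv M j, b) - pf x c d (y, b) = ∑ b', d b' j * kv b' b :=
    fun j b => dif_pf hM (by omega) c d j b
  have h2 : ∀ j b, pf x c d (y, b) - pf x c d (y - uv M j, b) = ∑ b', d b' j * kv b' b :=
    fun j b => by
      have := dif_pf hM (le_trans (near_sub (x := y) (z := x) j) hy) c d j b
      simpa [dif] using this
  rw [D1_apply, h1, h1, h2, h2]
  have h := sq2
  fin_cases a <;> simp [D0, pf, kc, kv, mv, nv, tc, Fin.sum_univ_two] <;> grind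

omit [NeZero M] in
theorem pf_zero (x : Tor M) : pf x (kc 0) 0 = 0 := by
  funext s
  simp [pf, kc]

omit [NeZero M] in
theorem dif_pf0 (x : Tor M) (c : Fin 2 → ℝ) (j : Fin 2) (s : Tor M × Fin 4) :
    dif j (pf x c 0) s = 0 := by
  simp [dif, pf]

theorem ch_tf1 {A : Gauge M} (hA : IsSign A) {x : Tor M} {ρ : ℕ} (hρ : 2 * ρ + 3 ≤ M)
    (hF : Flat A x ρ) (c : Fin 2 → ℝ) (d : Fin 2 → Fin 2 → ℝ) {y : Tor M} (hy : tdist y x + 1 ≤ ρ)
    (a : Fin 4) : ch A x (tf A x c d) 1 (y, a) = pf x (kc d) 0 (y, a) := by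
  rw [← ch_chain hA hρ hF _ 0 hy, ch_tf0 hA, D1_pf hρ hy]

theorem ch_tf2 {A : Gauge M} (hA : IsSign A) {x : Tor M} {ρ : ℕ} (hρ : 2 * ρ + 3 ≤ M)
    (hF : Flat A x ρ) (c : Fin 2 → ℝ) (d : Fin 2 → Fin 2 → ℝ) (k : ℕ) :
    ∀ y : Tor M, tdist y x + k + 2 ≤ ρ → ∀ a : Fin 4, ch A x (tf A x c d) (k + 2) (y, a) = 0 := by
  induction k with
  | zero =>
    intro y hy a
    rw [← ch_chain hA hρ hF _ 1 (by omega), D1_congr (g' := pf x (kc d) 0) (z := x)
      (R := tdist y x) (fun y' b h => ch_tf1 hA hρ hF c d (by omega) b) le_rfl,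
      D1_pf hρ (by omega), pf_zero]
    rfl
  | succ k ih =>
    intro y hy a
    rw [← ch_chain hA hρ hF _ (k + 2) (by omega), D1_congr (g' := 0) (z := x)
      (R := tdist y x) (fun y' b h => ih y' (by omega) b) le_rfl, mulVec_zero]
    rfl

omit [NeZero M] in
theorem kv_pf (x : Tor M) (c : Fin 2 → ℝ) (d : Fin 2 → Fin 2 → ℝ) (a : Fin 2) :
    ∑ b, kv a b * pf x c d (x, b) = c a := by
  have h := sq2
  fin_cases a <;> simp [pf, kv, mv, nv, lft, crd, Fin.sum_univ_two, Fin.sum_univ_four] <;> grind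

theorem kv_kv (d : Fin 2 → ℝ) (a : Fin 2) : ∑ c, kv a c * ∑ b, d b * kv b c = d a := by
  have h := sq2
  fin_cases a <;> simp [kv, Fin.sum_univ_two, Fin.sum_univ_four] <;> grind

omit [NeZero M] in
theorem abs_pf_le {x y : Tor M} {R : ℕ} (hy : tdist y x ≤ R) {c : Fin 2 → ℝ}
    {d : Fin 2 → Fin 2 → ℝ} {α β : ℝ} (hc : ∀ a, |c a| ≤ α) (hd : ∀ b i, |d b i| ≤ β) (a : Fin 4) :
    |pf x c d (y, a)| ≤ 2 * α + 4 * (β * (R + 1)) := by
  have h1 : ∀ i, |(crd (lft (y - x)) i : ℝ)| ≤ R := fun i => by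
    have h1 : (lft (y - x)).1.natAbs ≤ R := le_trans (le_max_left _ _) hy
    have h2 : (lft (y - x)).2.natAbs ≤ R := le_trans (le_max_right _ _) hy
    have h3 : |crd (lft (y - x)) i| ≤ (R : ℤ) := by
      rw [Int.abs_eq_natAbs]
      unfold crd
      split_ifs <;> omega
    exact_mod_cast h3
  have h2 : ∀ b, |c b * kv b a| ≤ α := fun b => by
    rw [abs_mul]
    exact le_trans (mul_le_of_le_one_right (abs_nonneg _) (abs_kv_le b a)) (hc b)
  have h3 : ∀ b i, |d b i * ((crd (lft (y - x)) i : ℝ) * kv b a + mv b i a)| ≤ β * (R + 1) := by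
    intro b i
    rw [abs_mul]
    refine mul_le_mul (hd b i) (le_trans (abs_add_le _ _) (add_le_add ?_ (abs_mv_le b i a)))
      (abs_nonneg _) (le_trans (abs_nonneg _) (hd b i))
    rw [abs_mul]
    exact le_trans (mul_le_of_le_one_right (abs_nonneg _) (abs_kv_le b a)) (h1 i)
  simp only [pf, Fin.sum_univ_two]
  have a0 := abs_le.mp (h2 0)
  have a1 := abs_le.mp (h2 1)
  have b0 := abs_le.mp (h3 0 0)
  have b1 := abs_le.mp (h3 0 1)
  have b2 := abs_le.mp (h3 1 0)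
  have b3 := abs_le.mp (h3 1 1)
  rw [abs_le]
  constructor <;> linarith [a0.1, a0.2, a1.1, a1.2, b0.1, b0.2, b1.1, b1.2, b2.1, b2.2, b3.1, b3.2]

theorem abs_kc_le {d : Fin 2 → Fin 2 → ℝ} {β : ℝ} (hd : ∀ b i, |d b i| ≤ β) (a : Fin 2) :
    |kc d a| ≤ β := by
  have key : ∀ t : ℝ, |t| ≤ 2 * β → |tc / 2 * t| ≤ β := fun t ht => by
    have := tc_nonneg
    have := tc_le
    rw [abs_mul, abs_of_nonneg (by linarith)]
    nlinarith [abs_nonneg t]
  fin_cases a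
  · change |-(tc / 2) * (d 0 1 + d 1 0)| ≤ β
    rw [neg_mul, abs_neg]
    refine key _ (le_trans (abs_add_le _ _) ?_)
    linarith [hd 0 1, hd 1 0]
  · change |tc / 2 * (d 1 1 - d 0 0)| ≤ β
    refine key _ (le_trans (abs_sub _ _) ?_)
    linarith [hd 1 1, hd 0 0]

theorem D0_le {g : Tor M × Fin 4 → ℝ} {x : Tor M} {ε δ : ℝ}
    (h : ∀ i y b, tdist y x ≤ 1 → |dif i g (y, b)| ≤ ε)
    (h' : ∀ a, |(Dm (1 : Gauge M) *ᵥ g) (x, a)| ≤ δ) (a : Fin 4) :
    |D0 (fun b => g (x, b)) a| ≤ δ + ε := by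
  have h1 := abs_le.mp (D1_sub_D0 h a)
  have h2 := abs_le.mp (h' a)
  rw [abs_le]
  constructor <;> linarith [h1.1, h1.2, h2.1, h2.2]

theorem prop_le {g : Tor M × Fin 4 → ℝ} {x : Tor M} {R : ℕ} {ε δ : ℝ}
    (h : ∀ i y b, tdist y x ≤ R → |dif i g (y, b)| ≤ ε) (h' : ∀ a, |g (x, a)| ≤ δ)
    {y : Tor M} (hy : tdist y x ≤ R) (a : Fin 4) : |g (y, a)| ≤ δ + 2 * R * ε := by
  have h1 := abs_le.mp (path_le (w := fun y => g (y, a)) (fun i y hy => h i y a hy) hy)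
  have h2 := abs_le.mp (h' a)
  rw [abs_le]
  constructor <;> linarith [h1.1, h1.2, h2.1, h2.2]

theorem taylor1 {u : Tor M × Fin 4 → ℝ} {x : Tor M} {R : ℕ} (hR : 1 ≤ R) {ε : ℝ}
    (b1 : ∀ i y a, tdist y x ≤ R → |dif i u (y, a)| ≤ ε)
    (b0 : ∀ a, |(Dm (1 : Gauge M) *ᵥ u) (x, a)| ≤ ε) (n0 : ∀ a, ∑ c, kv a c * u (x, c) = 0)
    {y : Tor M} (hy : tdist y x ≤ R) (a : Fin 4) : |u (y, a)| ≤ 6 * R * ε := by
  have e0 : 0 ≤ ε := le_trans (abs_nonneg _) (b0 0)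
  have h1 := D0_le (fun i y b h => b1 i y b (le_trans h hR)) b0
  have h2 := abs_le_of_D0 (v := fun b => u (x, b)) (ε := ε + ε)
    (fun a => by rw [n0, abs_zero]; linarith) h1
  have h3 := prop_le b1 h2 hy a
  have r1 : (1 : ℝ) ≤ R := by exact_mod_cast hR
  nlinarith

theorem taylor2 {u v w : Tor M × Fin 4 → ℝ} {x : Tor M} {R : ℕ} (hR : 1 ≤ R) {ε : ℝ}
    (h01 : ∀ y a, tdist y x ≤ 1 → (Dm (1 : Gauge M) *ᵥ u) (y, a) = v (y, a))
    (h12 : ∀ a, (Dm (1 : Gauge M) *ᵥ v) (x, a) = w (x, a))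
    (b2 : ∀ i j y a, tdist y x ≤ R → |dif j (dif i u) (y, a)| ≤ ε)
    (b1 : ∀ i y a, tdist y x ≤ R → |dif i v (y, a)| ≤ ε) (b0 : ∀ a, |w (x, a)| ≤ ε)
    (n0 : ∀ a, ∑ c, kv a c * u (x, c) = 0)
    (n1 : ∀ b i, ∑ c, kv b c * (u (x + uv M i, c) - u (x - uv M i, c)) = 0)
    {y : Tor M} (hy : tdist y x ≤ R) (a : Fin 4) :
    |u (y, a)| ≤ 120 * R ^ 2 * ε ∧ |v (y, a)| ≤ 50 * R * ε := by
  have e0 : 0 ≤ ε := le_trans (abs_nonneg _) (b0 0)
  have x0 : tdist x x = 0 := tdist_self x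
  have r1 : (1 : ℝ) ≤ R := by exact_mod_cast hR
  have s1 : ∀ i c, |dif i u (x, c)| ≤ 2 * (ε + ε) := by
    intro i
    refine abs_le_of_D0 (v := fun c => dif i u (x, c)) (fun b => ?_)
      (D0_le (fun j y b h => b2 i j y b (le_trans h hR)) fun a => ?_)
    · have e1 : ∑ c, kv b c * dif i u (x, c)
          = (∑ c, kv b c * (u (x + uv M i, c) - u (x - uv M i, c))
            + ∑ c, kv b c * dif i (dif i u) (x - uv M i, c)) / 2 := by
        simp only [dif, sub_add_cancel, Fin.sum_univ_four]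
        ring
      have e2 := abs_kv_dot (v := fun c => dif i (dif i u) (x - uv M i, c))
        (fun c => b2 i i _ c (le_trans (tdist_sub_uv x i) hR)) b
      rw [e1, n1, zero_add, abs_div, abs_two]
      linarith
    · rw [D1_dif, h01 _ a (tdist_uv x i), h01 _ a (by omega)]
      exact b1 i x a (by omega)
  have s2 : ∀ i y c, tdist y x ≤ R → |dif i u (y, c)| ≤ 2 * (ε + ε) + 2 * R * ε :=
    fun i y c h => prop_le (fun j y b h => b2 i j y b h) (s1 i) h c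
  have s3 : ∀ i y c, tdist y x ≤ 1 → |dif i u (y, c)| ≤ 6 * ε := fun i y c h => by
    have := prop_le (R := 1) (fun j y b h => b2 i j y b (le_trans h hR)) (s1 i) h c
    push_cast at this
    linarith
  have s4 : ∀ c, |v (x, c)| ≤ 2 * (24 * ε) := by
    refine abs_le_of_D0 (v := fun c => v (x, c)) (fun b => ?_) fun c => ?_
    · have e1 : ∑ c, kv b c * v (x, c) = ∑ c, kv b c * ((Dm (1 : Gauge M) *ᵥ u) (x, c)
          - D0 (fun b => u (x, b)) c) := by
        simp only [mul_sub, sum_sub_distrib, kv_D0, sub_zero, h01 x _ (by omega : tdist x x ≤ 1)]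
      rw [e1]
      refine le_trans (abs_kv_dot (D1_sub_D0 s3) b) (by linarith)
    · have := D0_le (δ := ε) (fun i y b h => b1 i y b (le_trans h hR))
        (fun a => by rw [h12]; exact b0 a) c
      linarith
  have s5 : ∀ c, |u (x, c)| ≤ 2 * (2 * (24 * ε) + 6 * ε) :=
    abs_le_of_D0 (v := fun c => u (x, c)) (fun b => by rw [n0, abs_zero]; linarith)
      (D0_le s3 fun a => by rw [h01 x a (by omega)]; exact s4 a)
  have s6 := prop_le s2 s5 hy a
  have s7 := prop_le b1 s4 hy a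
  have m1 : ε ≤ R * ε := le_mul_of_one_le_left e0 r1
  have m2 : R * ε ≤ R * (R * ε) := le_mul_of_one_le_left (by positivity) r1
  constructor <;> nlinarith

theorem fld_dot (x : Tor M) (a : Fin 2) (g : Tor M × Fin 4 → ℝ) :
    fld x a ⬝ᵥ g = ∑ c, kv a c * g (x, c) := by
  simp only [dotProduct, fld, ite_mul, zero_mul]
  rw [Fintype.sum_prod_type, sum_eq_single x]
  · simp
  · intro y _ h
    simp [h]
  · simp

theorem dfld_dot {A : Gauge M} (hA : IsSign A) {z : Tor M} {ρ : ℕ} (hρ : 2 * ρ + 3 ≤ M)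
    (hF : Flat A z ρ) (g : Tor M × Fin 4 → ℝ) {x : Tor M} (hx : tdist x z + 1 ≤ ρ) (b i : Fin 2) :
    trans A z x * (dfld A x b i ⬝ᵥ g)
      = (∑ c, kv b c * (ch A z g 0 (x + uv M i, c) - ch A z g 0 (x - uv M i, c))) / 2 := by
  have h1 : trans A z (x + uv M i) = trans A z x * A (x, i) :=
    trans_gauge hA hρ hF (by omega) (le_trans (near_add i) hx)
  have h2 : trans A z (x - uv M i) = trans A z x * A (x - uv M i, i) := by
    have h3 := trans_gauge hA hρ hF (x := x - uv M i) (i := i) (le_trans (near_sub i) hx)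
      (by rw [sub_add_cancel]; omega)
    rw [sub_add_cancel] at h3
    have h4 := sign_sq hA (x - uv M i, i)
    rw [h3]
    linear_combination (-trans A z (x - uv M i)) * h4
  simp only [dfld, smul_dotProduct, sub_dotProduct, fld_dot, smul_eq_mul, ch, pow_zero, one_mulVec,
    h1, h2, Fin.sum_univ_four]
  ring

end Vale.Agent.P144Z.E3
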