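import Vale.Agent.P144Z.E3.Cacc
import Vale.Agent.P144Z.E3.Poly

/-! Interior estimates and the Taylor expansion in a flat region. -/

namespace Vale.Agent.P144Z

open Finset Matrix

namespace E3

variable {M : ℕ} [NeZero M]

theorem hsq_nonneg (A : Gauge M) (ρ : ℕ) (B : Finset (Tor M)) (g : Tor M × Fin 4 → ℝ) :
    0 ≤ hsq A ρ B g := sum_nonneg fun k _ => mul_nonneg (by positivity) (l2sq_nonneg _ _)

theorem hsq_le {A : Gauge M} (hA : IsSign A) (z : Tor M) (g : Tor M × Fin 4 → ℝ) (ℓ : ℝ)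
    (B : Finset (Tor M)) {T : ℝ} (h : ∀ k, k ≤ 4 → ℓ ^ (2 * k) * l2sq B (ch A z g k) ≤ T) :
    hsq A ℓ B g ≤ 5 * T := by
  rw [hsq_ch hA z]
  simpa using sum_le_card_nsmul (range 5) (fun k => ℓ ^ (2 * k) * l2sq B (ch A z g k)) T
    (fun k hk => h k (by have := mem_range.mp hk; omega))

theorem term_le {A : Gauge M} (hA : IsSign A) (z : Tor M) (g : Tor M × Fin 4 → ℝ) {ℓ ρ : ℕ}
    (hℓ : 1 ≤ ℓ) (h : ℓ ≤ ρ) {B B' : Finset (Tor M)} (hB : B ⊆ B') {m k : ℕ} (hm : m ≤ 2 * k)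
    (hk : k ≤ 4) :
    (ℓ : ℝ) ^ (2 * k) * l2sq B (ch A z g k) ≤ ((ℓ : ℝ) / ρ) ^ m * hsq A ρ B' g := by
  have r0 : (0 : ℝ) < ρ := by
    have : 0 < ρ := by omega
    exact_mod_cast this
  have h1 : (ρ : ℝ) ^ (2 * k) * l2sq B' (ch A z g k) ≤ hsq A ρ B' g := by
    rw [hsq_ch hA z]
    exact single_le_sum (f := fun k => (ρ : ℝ) ^ (2 * k) * l2sq B' (ch A z g k))
      (fun k _ => mul_nonneg (by positivity) (l2sq_nonneg _ _)) (mem_range.mpr (by omega))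
  have h2 : ((ℓ : ℝ) / ρ) ^ (2 * k) ≤ ((ℓ : ℝ) / ρ) ^ m :=
    pow_le_pow_of_le_one (by positivity) ((div_le_one r0).mpr (by exact_mod_cast h)) hm
  have p1 := l2sq_nonneg B' (ch A z g k)
  calc (ℓ : ℝ) ^ (2 * k) * l2sq B (ch A z g k) ≤ (ℓ : ℝ) ^ (2 * k) * l2sq B' (ch A z g k) :=
        mul_le_mul_of_nonneg_left (l2sq_mono hB _) (by positivity)
    _ = ((ℓ : ℝ) / ρ) ^ (2 * k) * ((ρ : ℝ) ^ (2 * k) * l2sq B' (ch A z g k)) := by
        rw [div_pow]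
        field_simp
    _ ≤ _ := mul_le_mul h2 h1 (by positivity) (by positivity)

theorem exists_eps {T : ℝ} (hT : 0 ≤ T) {ρ : ℕ} (hρ : 1 ≤ ρ) (n : ℕ) :
    ∃ ε : ℝ, 0 ≤ ε ∧ ε ^ 2 = T / (ρ : ℝ) ^ n ∧ ∀ t : ℝ, t ^ 2 * (ρ : ℝ) ^ n ≤ T → |t| ≤ ε := by
  have r0 : (0 : ℝ) < ρ := by exact_mod_cast hρ
  refine ⟨√(T / (ρ : ℝ) ^ n), Real.sqrt_nonneg _, Real.sq_sqrt (by positivity), fun t ht => ?_⟩
  exact Real.abs_le_sqrt ((le_div_iff₀ (by positivity)).mpr ht)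

omit [NeZero M] in
theorem l2sq_congr {B : Finset (Tor M)} {g g' : Tor M × Fin 4 → ℝ}
    (h : ∀ x ∈ B, ∀ a, g (x, a) = g' (x, a)) : l2sq B g = l2sq B g' :=
  sum_congr rfl fun x hx => sum_congr rfl fun a _ => by rw [h x hx a]

theorem tf_est {A : Gauge M} (hA : IsSign A) {x z : Tor M} {ℓ : ℕ} (hℓ : 1 ≤ ℓ)
    (hM : 8 * ℓ + 19 ≤ M) (hF : Flat A x (4 * ℓ + 8)) (hz : tdist z x ≤ 2 * ℓ) {c : Fin 2 → ℝ}
    {d : Fin 2 → Fin 2 → ℝ} {α β : ℝ} (hc : ∀ a, |c a| ≤ α) (hd : ∀ b i, |d b i| ≤ β) :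
    hsq A ℓ (ball z (2 * ℓ)) (tf A x c d) ≤ 5 * (100 * ℓ ^ 2 * (2 * α + 20 * (β * ℓ)) ^ 2) := by
  have a0 : 0 ≤ α := le_trans (abs_nonneg _) (hc 0)
  have b0 : 0 ≤ β := le_trans (abs_nonneg _) (hd 0 0)
  have l1 : (1 : ℝ) ≤ ℓ := by exact_mod_cast hℓ
  have nr : ∀ y, tdist y z ≤ 2 * ℓ → tdist y x ≤ 4 * ℓ := fun y hy => by
    have := tdist_triangle y z x
    omega
  refine hsq_le hA x _ _ _ fun k hk => ?_
  rcases k with _ | _ | k
  · rw [mul_zero, pow_zero, one_mul, ch_tf0 hA]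
    refine l2sq_ball_le hℓ fun y a hy => sq_le_sq' ?_ ?_ <;>
    · have h := abs_le.mp (abs_pf_le (nr y hy) hc hd a)
      push_cast at h
      nlinarith [h.1, h.2]
  · have h1 : l2sq (ball z (2 * ℓ)) (ch A x (tf A x c d) (0 + 1)) ≤ 100 * ℓ ^ 2 * (2 * β) ^ 2 := by
      refine l2sq_ball_le hℓ fun y a hy => ?_
      have := nr y hy
      rw [zero_add, ch_tf1 hA (by omega) hF c d (by omega)]
      have h := abs_le.mp (abs_pf_le (β := 0) (d := 0) (nr y hy) (abs_kc_le hd) (by simp) a)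
      exact sq_le_sq' (by linarith [h.1]) (by linarith [h.2])
    refine le_trans (mul_le_mul_of_nonneg_left h1 (by positivity)) ?_
    have h2 : (2 * (β * ℓ)) ^ 2 ≤ (2 * α + 20 * (β * ℓ)) ^ 2 :=
      pow_le_pow_left₀ (by positivity) (by nlinarith [mul_nonneg b0 (Nat.cast_nonneg ℓ)]) 2
    calc (ℓ : ℝ) ^ (2 * (0 + 1)) * (100 * ℓ ^ 2 * (2 * β) ^ 2)
        = 100 * ℓ ^ 2 * (2 * (β * ℓ)) ^ 2 := by ring
      _ ≤ _ := mul_le_mul_of_nonneg_left h2 (by positivity)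
  · rw [l2sq_congr (g' := 0) fun y hy a => ch_tf2 hA (by omega) hF c d k y
      (by have := nr y (mem_ball.mp hy); omega) a]
    simp only [l2sq, Pi.zero_apply, ne_eq, OfNat.ofNat_ne_zero, not_false_eq_true, zero_pow,
      sum_const_zero, mul_zero]
    positivity

end E3

open E3

/-- Interior estimate in a flat region. -/
theorem bulk_est : ∃ C : ℝ, 1 ≤ C ∧ ∀ (M : ℕ) [NeZero M] (A : Gauge M), IsSign A →
    ∀ (z : Tor M) (ℓ ρ : ℕ), 1 ≤ ℓ → 2 * ℓ ≤ ρ → 2 * ρ + 11 ≤ M → Flat A z ρ →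
    ∀ g : Tor M × Fin 4 → ℝ,
    hsq A ℓ (ball z (2 * ℓ)) g ≤ C * ((ℓ : ℝ) / ρ) ^ 2 * hsq A ρ (ball z ρ) g := by
  obtain ⟨C, hC, h⟩ := sup_all
  refine ⟨5 * (256 * C), by linarith, ?_⟩
  intro M _ A hA z ℓ ρ hℓ hρ hM hF g
  have H0 := hsq_nonneg A ρ (ball z ρ) g
  have r0 : (0 : ℝ) < ρ := by
    have : 0 < ρ := by omega
    exact_mod_cast this
  have p0 : 0 ≤ ((ℓ : ℝ) / ρ) ^ 2 * hsq A ρ (ball z ρ) g := by positivity
  rw [mul_assoc, mul_assoc]
  refine hsq_le hA z g _ _ fun k hk => ?_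
  rcases Nat.eq_zero_or_pos k with h0 | h0
  · subst h0
    by_cases h1 : ρ ≤ 16 * ℓ
    · refine le_trans (term_le hA z g (ρ := ρ) hℓ (by omega) (ball_mono z hρ) (m := 0) (by omega) hk) ?_
      have h2 : (ρ : ℝ) ≤ 16 * ℓ := by exact_mod_cast h1
      have h3 : 1 ≤ 256 * ((ℓ : ℝ) / ρ) ^ 2 := by
        rw [div_pow, ← mul_div_assoc, le_div_iff₀ (by positivity)]
        nlinarith
      rw [pow_zero, one_mul]
      nlinarith [mul_le_mul_of_nonneg_right h3 H0, mul_le_mul_of_nonneg_right hC p0]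
    · have h2 := l2sq_ball_le (g := ch A z g 0) (z := z) hℓ
        (t := C * hsq A ρ (ball z ρ) g / ρ ^ 2) fun x a hx => by
          rw [le_div_iff₀ (by positivity)]
          exact (h M A hA z ρ (by omega) (by omega) hF g x a (by omega)).1 0 (by omega)
      rw [mul_zero, pow_zero, one_mul]
      refine le_trans h2 ?_
      have e : 100 * (ℓ : ℝ) ^ 2 * (C * hsq A ρ (ball z ρ) g / ρ ^ 2)
          = 100 * C * (((ℓ : ℝ) / ρ) ^ 2 * hsq A ρ (ball z ρ) g) := by ring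
      rw [e]
      exact mul_le_mul_of_nonneg_right (by linarith) p0
  · refine le_trans (term_le hA z g (ρ := ρ) hℓ (by omega) (ball_mono z hρ) (m := 2) (by omega) hk) ?_
    exact le_mul_of_one_le_left p0 (by linarith)

/-- Pointwise bounds in a flat region. -/
theorem point_est : ∃ C : ℝ, 1 ≤ C ∧ ∀ (M : ℕ) [NeZero M] (A : Gauge M), IsSign A →
    ∀ (z : Tor M) (ρ : ℕ), 8 ≤ ρ → 2 * ρ + 11 ≤ M → Flat A z ρ → ∀ x, tdist x z ≤ 1 →
    ∀ g : Tor M × Fin 4 → ℝ, (∀ a, g (x, a) ^ 2 * ρ ^ 2 ≤ C * hsq A ρ (ball z ρ) g) ∧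
      (∀ a, (Dm A *ᵥ g) (x, a) ^ 2 * ρ ^ 4 ≤ C * hsq A ρ (ball z ρ) g) ∧
      ∀ b i, (dfld A x b i ⬝ᵥ g) ^ 2 * ρ ^ 4 ≤ C * hsq A ρ (ball z ρ) g := by
  obtain ⟨C, hC, h⟩ := sup_all
  refine ⟨16 * (16 ^ 4 * C), by linarith, ?_⟩
  intro M _ A hA z ρ hρ hM hF x hx g
  have H0 := hsq_nonneg A ρ (ball z ρ) g
  have r0 : (0 : ℝ) < ρ := by
    have : 0 < ρ := by omega
    exact_mod_cast this
  have p0 : 0 ≤ C * hsq A ρ (ball z ρ) g := by positivity
  have p1 : hsq A ρ (ball z ρ) g ≤ C * hsq A ρ (ball z ρ) g := le_mul_of_one_le_left H0 hC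
  have triv : ∀ k, k ≤ 4 → ∀ y a, tdist y z ≤ ρ →
      ch A z g k (y, a) ^ 2 * (ρ : ℝ) ^ (2 * k) ≤ hsq A ρ (ball z ρ) g := by
    intro k hk y a hy
    have h1 := term_le hA z g (ℓ := ρ) (ρ := ρ) (by omega) le_rfl (subset_refl (ball z ρ))
      (m := 0) (by omega) hk
    rw [pow_zero, one_mul] at h1
    refine le_trans ?_ h1
    rw [mul_comm]
    exact mul_le_mul_of_nonneg_left (sq_le_l2sq _ (mem_ball.mpr hy) a) (by positivity)
  have k1 : ∀ k, k ≤ 1 → ∀ a,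
      ch A z g k (x, a) ^ 2 * (ρ : ℝ) ^ (2 * k + 2) ≤ 16 ^ 4 * (C * hsq A ρ (ball z ρ) g) := by
    intro k hk a
    by_cases h1 : 16 ≤ ρ
    · have := (h M A hA z ρ h1 (by omega) hF g x a (by omega)).1 k (by omega)
      linarith
    · have h2 : (ρ : ℝ) ≤ 16 := by exact_mod_cast (by omega : ρ ≤ 16)
      have h3 : (ρ : ℝ) ^ 2 ≤ 16 ^ 2 := pow_le_pow_left₀ r0.le h2 2
      have h4 := mul_le_mul (triv k (by omega) x a (by omega)) h3 (by positivity) H0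
      rw [pow_add, ← mul_assoc]
      linarith
  have k2 : ∀ i c, (ch A z g 0 (x + uv M i, c) - ch A z g 0 (x - uv M i, c)) ^ 2 * (ρ : ℝ) ^ 4
      ≤ 4 * (16 ^ 4 * (C * hsq A ρ (ball z ρ) g)) := by
    intro i c
    have n1 := near_add (x := x) (z := z) i
    have n2 := near_sub (x := x) (z := z) i
    by_cases h1 : 16 ≤ ρ
    · have a1 := (h M A hA z ρ h1 (by omega) hF g x c (by omega)).2.1 0 i (by omega)
      have a2 := (h M A hA z ρ h1 (by omega) hF g (x - uv M i) c (by omega)).2.1 0 i (by omega)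
      simp only [dif, sub_add_cancel, mul_zero, zero_add] at a1 a2
      have a3 := mul_nonneg (sq_nonneg (ch A z g 0 (x + uv M i, c) - 2 * ch A z g 0 (x, c)
        + ch A z g 0 (x - uv M i, c))) (show 0 ≤ (ρ : ℝ) ^ 4 by positivity)
      linarith
    · have h2 : (ρ : ℝ) ≤ 16 := by exact_mod_cast (by omega : ρ ≤ 16)
      have h3 : (ρ : ℝ) ^ 4 ≤ 16 ^ 4 := pow_le_pow_left₀ r0.le h2 4
      have a1 := triv 0 (by omega) (x + uv M i) c (by omega)
      have a2 := triv 0 (by omega) (x - uv M i) c (by omega)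
      rw [mul_zero, pow_zero, mul_one] at a1 a2
      have a3 : (ch A z g 0 (x + uv M i, c) - ch A z g 0 (x - uv M i, c)) ^ 2
          ≤ 4 * hsq A ρ (ball z ρ) g := by
        linarith [sq_nonneg (ch A z g 0 (x + uv M i, c) + ch A z g 0 (x - uv M i, c))]
      have a4 := mul_le_mul a3 h3 (by positivity) (by positivity)
      linarith
  have s1 := trans_sq hA z x
  refine ⟨fun a => ?_, fun a => ?_, fun b i => ?_⟩
  · have h1 := k1 0 (by omega) a
    have e : ch A z g 0 (x, a) ^ 2 = g (x, a) ^ 2 := by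
      simp only [ch, pow_zero, one_mulVec]
      linear_combination g (x, a) ^ 2 * s1
    rw [e, mul_zero, zero_add] at h1
    linarith
  · have h1 := k1 1 (by omega) a
    have e : ch A z g 1 (x, a) ^ 2 = (Dm A *ᵥ g) (x, a) ^ 2 := by
      simp only [ch, pow_one]
      linear_combination (Dm A *ᵥ g) (x, a) ^ 2 * s1
    rw [e, show 2 * 1 + 2 = 4 from rfl] at h1
    linarith
  · obtain ⟨ε, e0, e1, e2⟩ := exists_eps
      (T := 4 * (16 ^ 4 * (C * hsq A ρ (ball z ρ) g))) (by positivity) (ρ := ρ) (by omega) 4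
    have h1 := abs_kv_dot
      (v := fun c => ch A z g 0 (x + uv M i, c) - ch A z g 0 (x - uv M i, c))
      (fun c => e2 _ (k2 i c)) b
    have h2 := dfld_dot hA (ρ := ρ) (by omega) hF g (x := x) (by omega) b i
    have h3 : (trans A z x * (dfld A x b i ⬝ᵥ g)) ^ 2 ≤ (2 * ε) ^ 2 := by
      rw [h2]
      have := abs_le.mp h1
      exact sq_le_sq' (by linarith [this.1]) (by linarith [this.2])
    have e : (trans A z x * (dfld A x b i ⬝ᵥ g)) ^ 2 = (dfld A x b i ⬝ᵥ g) ^ 2 := by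
      linear_combination (dfld A x b i ⬝ᵥ g) ^ 2 * s1
    rw [e, mul_pow, e1, ← mul_div_assoc, le_div_iff₀ (by positivity)] at h3
    linarith

/-- The size of the test functions. -/
theorem test_est : ∃ C : ℝ, 1 ≤ C ∧ ∀ (M : ℕ) [NeZero M] (A : Gauge M), IsSign A →
    ∀ (x z : Tor M) (ℓ : ℕ), 1 ≤ ℓ → 8 * ℓ + 19 ≤ M → Flat A x (4 * ℓ + 8) → tdist z x ≤ 2 * ℓ →
    (∀ a, hsq A ℓ (ball z (2 * ℓ)) (tf0 A x a) ≤ C * ℓ ^ 2) ∧
      ∀ b i, hsq A ℓ (ball z (2 * ℓ)) (tf1 A x b i) ≤ C * ℓ ^ 4 := by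
  refine ⟨200000, by norm_num, ?_⟩
  intro M _ A hA x z ℓ hℓ hM hF hz
  refine ⟨fun a => ?_, fun b i => ?_⟩
  · have e : tf0 A x a = tf A x (fun a' => if a' = a then 1 else 0) 0 := by simp [tf]
    have h := tf_est hA hℓ hM hF hz (c := fun a' => if a' = a then 1 else 0) (d := 0) (α := 1)
      (β := 0) (fun a' => by split_ifs <;> simp) (by simp)
    rw [e]
    refine le_trans h ?_
    nlinarith [sq_nonneg (ℓ : ℝ)]
  · have e : tf1 A x b i = tf A x 0 (fun b' i' => if b' = b ∧ i' = i then 1 else 0) := by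
      fin_cases b <;> fin_cases i <;> simp [tf, Fin.sum_univ_two]
    have h := tf_est hA hℓ hM hF hz (c := 0) (d := fun b' i' => if b' = b ∧ i' = i then 1 else 0)
      (α := 0) (β := 1) (by simp) (fun b' i' => by split_ifs <;> simp)
    rw [e]
    refine le_trans h (le_of_eq ?_)
    ring

/-- Taylor expansion. -/
theorem taylor_est : ∃ C : ℝ, 1 ≤ C ∧ ∀ (M : ℕ) [NeZero M] (A : Gauge M), IsSign A →
    ∀ (x z : Tor M) (ℓ ρ : ℕ), 1 ≤ ℓ → 16 * ℓ ≤ ρ → 2 * ρ + 11 ≤ M → Flat A x ρ →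
    tdist z x ≤ 2 * ℓ → ∀ g : Tor M × Fin 4 → ℝ,
    hsq A ℓ (ball z (2 * ℓ)) (g - ∑ a, (fld x a ⬝ᵥ g) • tf0 A x a)
      ≤ C * ((ℓ : ℝ) / ρ) ^ 4 * hsq A ρ (ball x ρ) g ∧
    hsq A ℓ (ball z (2 * ℓ)) (g - ∑ a, (fld x a ⬝ᵥ g) • tf0 A x a -
        ∑ b, ∑ i, (dfld A x b i ⬝ᵥ g) • tf1 A x b i)
      ≤ C * ((ℓ : ℝ) / ρ) ^ 6 * hsq A ρ (ball x ρ) g := by
  obtain ⟨C, hC, h⟩ := sup_all
  refine ⟨5 * (100 * 1920 ^ 2 * C), by linarith, ?_⟩
  intro M _ A hA x z ℓ ρ hℓ hρ hM hF hz g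
  have hM' : 2 * ρ + 3 ≤ M := by omega
  have hs := h M A hA x ρ (by omega) hM' hF g
  have H0 := hsq_nonneg A ρ (ball x ρ) g
  have r0 : (0 : ℝ) < ρ := by
    have : 0 < ρ := by omega
    exact_mod_cast this
  have x0 : tdist x x = 0 := tdist_self x
  have nr : ∀ y, tdist y z ≤ 2 * ℓ → tdist y x ≤ 4 * ℓ := fun y hy => by
    have := tdist_triangle y z x
    omega
  have hB : ball z (2 * ℓ) ⊆ ball x ρ := fun y hy =>
    mem_ball.mpr (by have := nr y (mem_ball.mp hy); omega)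
  have hi : ∀ (c : Fin 2 → ℝ) (d : Fin 2 → Fin 2 → ℝ) (k m : ℕ), k + 2 ≤ 4 → m ≤ 2 * (k + 2) →
      (ℓ : ℝ) ^ (2 * (k + 2)) * l2sq (ball z (2 * ℓ)) (ch A x (g - tf A x c d) (k + 2))
        ≤ 100 * 1920 ^ 2 * C * (((ℓ : ℝ) / ρ) ^ m * hsq A ρ (ball x ρ) g) := by
    intro c d k m hk hm
    rw [l2sq_congr (g' := ch A x g (k + 2)) fun y hy a => by
      rw [ch_sub, ch_tf2 hA hM' hF c d k y (by have := nr y (mem_ball.mp hy); omega) a, sub_zero]]
    exact le_trans (term_le hA x g hℓ (by omega) hB hm hk)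
      (le_mul_of_one_le_left (by positivity) (by linarith))
  have fin : ∀ (u : Tor M × Fin 4 → ℝ) (n p k : ℕ) (K ε : ℝ), 0 ≤ K → K ≤ 1920 → 0 ≤ ε →
      ε ^ 2 = C * hsq A ρ (ball x ρ) g / (ρ : ℝ) ^ n → 2 * k + 2 + 2 * p = n →
      (∀ y a, tdist y x ≤ 4 * ℓ → |u (y, a)| ≤ K * (ℓ : ℝ) ^ p * ε) →
      (ℓ : ℝ) ^ (2 * k) * l2sq (ball z (2 * ℓ)) u
        ≤ 100 * 1920 ^ 2 * C * (((ℓ : ℝ) / ρ) ^ n * hsq A ρ (ball x ρ) g) := by
    intro u n p k K ε K0 K1 e0 e1 hn hu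
    have h1 := l2sq_ball_le (g := u) (z := z) hℓ (t := (1920 * (ℓ : ℝ) ^ p * ε) ^ 2)
      fun y a hy => by
        have h2 : |u (y, a)| ≤ 1920 * (ℓ : ℝ) ^ p * ε := le_trans (hu y a (nr y hy)) (by gcongr)
        exact sq_le_sq' (abs_le.mp h2).1 (abs_le.mp h2).2
    refine le_trans (mul_le_mul_of_nonneg_left h1 (by positivity)) (le_of_eq ?_)
    rw [mul_pow, e1, ← hn, div_pow]
    ring
  have n0 : ∀ (d : Fin 2 → Fin 2 → ℝ) a,
      ∑ c, kv a c * ch A x (g - tf A x (fun a => fld x a ⬝ᵥ g) d) 0 (x, c) = 0 := by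
    intro d a
    simp only [ch_sub, ch_tf0 hA, mul_sub, sum_sub_distrib, kv_pf, fld_dot]
    simp [ch, trans_self]
  have dd : ∀ (c : Fin 2 → ℝ) (d : Fin 2 → Fin 2 → ℝ) i y a, tdist y x ≤ ρ →
      dif i (ch A x (g - tf A x c d) 0) (y, a)
        = dif i (ch A x g 0) (y, a) - ∑ b, d b i * kv b a := by
    intro c d i y a hy
    rw [← dif_pf hM' hy c d i a]
    simp only [dif, ch_sub, ch_tf0 hA]
    ring
  constructor
  · obtain ⟨ε, e0, e1, e2⟩ := exists_eps (T := C * hsq A ρ (ball x ρ) g) (by positivity)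
      (ρ := ρ) (by omega) 4
    have e : ∑ a, (fld x a ⬝ᵥ g) • tf0 A x a = tf A x (fun a => fld x a ⬝ᵥ g) 0 := by simp [tf]
    have v1 : ∀ y a, tdist y x ≤ 4 * ℓ →
        |ch A x (g - tf A x (fun a => fld x a ⬝ᵥ g) 0) 1 (y, a)| ≤ ε := fun y a hy => by
      rw [ch_sub, ch_tf1 hA hM' hF _ _ (by omega), pf_zero, Pi.zero_apply, sub_zero]
      exact e2 _ ((hs y a (by omega)).1 1 (by omega))
    rw [e, mul_assoc, mul_assoc]
    refine hsq_le hA x _ _ _ fun k hk => ?_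
    rcases k with _ | _ | k
    · refine fin _ 4 1 0 24 ε (by norm_num) (by norm_num) e0 e1 rfl fun y a hy => ?_
      have := taylor1 (u := ch A x (g - tf A x (fun a => fld x a ⬝ᵥ g) 0) 0) (R := 4 * ℓ)
        (by omega) (ε := ε) (fun i y a hy => by
          rw [dd _ _ i y a (by omega)]
          simpa using e2 _ ((hs y a (by omega)).2.1 0 i (by omega)))
        (fun a => by rw [ch_chain hA hM' hF _ 0 (by omega)]; exact v1 x a (by omega)) (n0 0) hy a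
      push_cast at this
      linarith
    · refine fin _ 4 0 1 1 ε (by norm_num) (by norm_num) e0 e1 rfl fun y a hy => ?_
      simpa using v1 y a hy
    · exact hi _ _ k 4 hk (by omega)
  · obtain ⟨ε, e0, e1, e2⟩ := exists_eps (T := C * hsq A ρ (ball x ρ) g) (by positivity)
      (ρ := ρ) (by omega) 6
    have e : g - ∑ a, (fld x a ⬝ᵥ g) • tf0 A x a - ∑ b, ∑ i, (dfld A x b i ⬝ᵥ g) • tf1 A x b i
        = g - tf A x (fun a => fld x a ⬝ᵥ g) (fun b i => dfld A x b i ⬝ᵥ g) := by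
      rw [sub_sub]
      rfl
    have v2 : ∀ y a, tdist y x ≤ 4 * ℓ → |ch A x (g - tf A x (fun a => fld x a ⬝ᵥ g)
        (fun b i => dfld A x b i ⬝ᵥ g)) 2 (y, a)| ≤ ε := fun y a hy => by
      rw [ch_sub, ch_tf2 hA hM' hF _ _ 0 y (by omega), sub_zero]
      exact e2 _ ((hs y a (by omega)).1 2 (by omega))
    have key := fun (y : Tor M) (hy : tdist y x ≤ 4 * ℓ) (a : Fin 4) => taylor2
      (u := ch A x (g - tf A x (fun a => fld x a ⬝ᵥ g) (fun b i => dfld A x b i ⬝ᵥ g)) 0)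
      (v := ch A x (g - tf A x (fun a => fld x a ⬝ᵥ g) (fun b i => dfld A x b i ⬝ᵥ g)) 1)
      (w := ch A x (g - tf A x (fun a => fld x a ⬝ᵥ g) (fun b i => dfld A x b i ⬝ᵥ g)) 2)
      (x := x) (R := 4 * ℓ) (by omega) (ε := ε)
      (fun y a hy => ch_chain hA hM' hF _ 0 (by omega) a)
      (fun a => ch_chain hA hM' hF _ 1 (by omega) a)
      (fun i j y a hy => by
        have n1 := near_add (x := y) (z := x) j
        have := e2 _ ((hs y a (by omega)).2.2 i j)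
        rw [dif, dd _ _ i _ a (by simp only; omega), dd _ _ i y a (by omega), sub_sub_sub_cancel_right]
        exact this)
      (fun i y a hy => by
        have n1 := near_add (x := y) (z := x) i
        have := e2 _ ((hs y a (by omega)).2.1 1 i (by omega))
        have h0 := dif_pf0 x (kc fun b i => dfld A x b i ⬝ᵥ g) i (y, a)
        rw [dif] at this h0 ⊢
        rw [ch_sub, ch_sub, ch_tf1 hA hM' hF _ _ (by simp only; omega),
          ch_tf1 hA hM' hF _ _ (by omega), sub_eq_zero.mp h0, sub_sub_sub_cancel_right]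
        exact this)
      (fun a => v2 x a (by omega)) (n0 _)
      (fun b i => by
        have n2 := near_sub (x := x) (z := x) i
        have h1 := dfld_dot hA hM' hF g (x := x) (by omega) b i
        rw [trans_self, one_mul] at h1
        have h2 := kv_kv (fun b => dfld A x b i ⬝ᵥ g) b
        have h3 := fun c => dd (fun a => fld x a ⬝ᵥ g) (fun b i => dfld A x b i ⬝ᵥ g) i x c
          (by omega)
        have h4 := fun c => dd (fun a => fld x a ⬝ᵥ g) (fun b i => dfld A x b i ⬝ᵥ g) i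
          (x - uv M i) c (by omega)
        simp only [dif, sub_add_cancel] at h3 h4
        rw [Fin.sum_univ_four] at h1 h2 ⊢
        linear_combination kv b 0 * (h3 0 + h4 0) + kv b 1 * (h3 1 + h4 1)
          + kv b 2 * (h3 2 + h4 2) + kv b 3 * (h3 3 + h4 3) - 2 * h1 - 2 * h2)
      hy a
    rw [e, mul_assoc, mul_assoc]
    refine hsq_le hA x _ _ _ fun k hk => ?_
    rcases k with _ | _ | _ | k
    · refine fin _ 6 2 0 1920 ε (by norm_num) (by norm_num) e0 e1 rfl fun y a hy => ?_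
      have := (key y hy a).1
      push_cast at this
      linarith
    · refine fin _ 6 1 1 200 ε (by norm_num) (by norm_num) e0 e1 rfl fun y a hy => ?_
      have := (key y hy a).2
      push_cast at this
      linarith
    · refine fin _ 6 0 2 1 ε (by norm_num) (by norm_num) e0 e1 rfl fun y a hy => ?_
      simpa using v2 y a hy
    · exact hi _ _ (k + 1) 6 hk (by omega)

end Vale.Agent.P144Z
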