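import Vale.Agent.P144Z.G.Main

/-! The operator in coordinates, differences, gauge chains, and the constant matrix. -/

namespace Vale.Agent.P144Z.E3

open Finset Matrix

variable {M : ℕ} [NeZero M]

/-- The constant part of the operator. -/
noncomputable def D0 (v : Fin 4 → ℝ) : Fin 4 → ℝ :=
  ![v 1 + √2 * v 2 + v 3, -v 0 + v 2 + √2 * v 3, -(√2 * v 0) - v 1 + v 3, -v 0 - √2 * v 1 - v 2]

theorem sum_hop (A : Gauge M) (g : Tor M × Fin 4 → ℝ) (s : Tor M × Fin 4) :
    ∑ s', hop A s s' * g s' = (if s.2 = 0 then A (s.1, 0) * g (s.1 + uv M 0, 2) else 0)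
      + (if s.2 = 1 then A (s.1, 1) * g (s.1 + uv M 1, 3) else 0) := by
  simp only [hop, add_mul, sum_add_distrib]
  congr 1
  · rw [sum_eq_single (s.1 + uv M 0, (2 : Fin 4))]
    · simp
    · rintro ⟨y, b⟩ _ h
      rw [if_neg, zero_mul]
      rintro ⟨-, h1, h2⟩
      exact h (Prod.ext h2 h1)
    · simp
  · rw [sum_eq_single (s.1 + uv M 1, (3 : Fin 4))]
    · simp
    · rintro ⟨y, b⟩ _ h
      rw [if_neg, zero_mul]
      rintro ⟨-, h1, h2⟩
      exact h (Prod.ext h2 h1)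
    · simp

theorem sum_hop' (A : Gauge M) (g : Tor M × Fin 4 → ℝ) (s : Tor M × Fin 4) :
    ∑ s', hop A s' s * g s' = (if s.2 = 2 then A (s.1 - uv M 0, 0) * g (s.1 - uv M 0, 0) else 0)
      + (if s.2 = 3 then A (s.1 - uv M 1, 1) * g (s.1 - uv M 1, 1) else 0) := by
  simp only [hop, add_mul, sum_add_distrib]
  congr 1
  · rw [sum_eq_single (s.1 - uv M 0, (0 : Fin 4))]
    · simp
    · rintro ⟨y, b⟩ _ h
      rw [if_neg, zero_mul]
      rintro ⟨h1, -, h2⟩
      exact h (Prod.ext (eq_sub_of_add_eq h2.symm) h1)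
    · simp
  · rw [sum_eq_single (s.1 - uv M 1, (1 : Fin 4))]
    · simp
    · rintro ⟨y, b⟩ _ h
      rw [if_neg, zero_mul]
      rintro ⟨h1, -, h2⟩
      exact h (Prod.ext (eq_sub_of_add_eq h2.symm) h1)
    · simp

theorem Dm_apply (A : Gauge M) (g : Tor M × Fin 4 → ℝ) (x : Tor M) (a : Fin 4) :
    (Dm A *ᵥ g) (x, a) = ∑ b, sA a b * g (x, b) + tc *
      ((if a = 0 then A (x, 0) * g (x + uv M 0, 2) else 0)
        + (if a = 1 then A (x, 1) * g (x + uv M 1, 3) else 0)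
        - ((if a = 2 then A (x - uv M 0, 0) * g (x - uv M 0, 0) else 0)
        + (if a = 3 then A (x - uv M 1, 1) * g (x - uv M 1, 1) else 0))) := by
  have h1 := sum_hop A g (x, a)
  have h2 := sum_hop' A g (x, a)
  simp only at h1 h2
  rw [← h1, ← h2]
  simp only [mulVec, dotProduct, Dm, of_apply, add_mul, sum_add_distrib, mul_assoc, sub_mul,
    ← mul_sum, sum_sub_distrib]
  congr 1
  rw [Fintype.sum_prod_type, sum_eq_single x]
  · simp
  · intro y _ h
    simp [h.symm]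
  · simp

/-- The operator in the trivial gauge. -/
theorem D1_apply (g : Tor M × Fin 4 → ℝ) (x : Tor M) (a : Fin 4) :
    (Dm (1 : Gauge M) *ᵥ g) (x, a) = D0 (fun b => g (x, b)) a + tc *
      ![g (x + uv M 0, 2) - g (x, 2), g (x + uv M 1, 3) - g (x, 3),
        g (x, 0) - g (x - uv M 0, 0), g (x, 1) - g (x - uv M 1, 1)] a := by
  rw [Dm_apply]
  fin_cases a <;> simp [Fin.sum_univ_four, sA, D0, tc] <;> ring

/-- The forward difference. -/
def dif (i : Fin 2) (g : Tor M × Fin 4 → ℝ) (s : Tor M × Fin 4) : ℝ :=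
  g (s.1 + uv M i, s.2) - g s

theorem tdist_sub_uv (x : Tor M) (i : Fin 2) : tdist (x - uv M i) x ≤ 1 := by
  have h := tdist_uv (x - uv M i) i
  rwa [sub_add_cancel, tdist_comm] at h

theorem near_add {x z : Tor M} (i : Fin 2) : tdist (x + uv M i) z ≤ tdist x z + 1 := by
  have h1 := tdist_triangle (x + uv M i) x z
  have h2 := tdist_uv x i
  omega

theorem near_sub {x z : Tor M} (i : Fin 2) : tdist (x - uv M i) z ≤ tdist x z + 1 := by
  have h1 := tdist_triangle (x - uv M i) x z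
  have h2 := tdist_sub_uv x i
  omega

theorem D1_dif (i : Fin 2) (g : Tor M × Fin 4 → ℝ) (x : Tor M) (a : Fin 4) :
    (Dm (1 : Gauge M) *ᵥ dif i g) (x, a)
      = (Dm (1 : Gauge M) *ᵥ g) (x + uv M i, a) - (Dm (1 : Gauge M) *ᵥ g) (x, a) := by
  have e1 : ∀ j, x + uv M j + uv M i = x + uv M i + uv M j := fun j => add_right_comm _ _ _
  have e2 : ∀ j, x - uv M j + uv M i = x + uv M i - uv M j := fun j => sub_add_eq_add_sub _ _ _
  simp only [D1_apply, dif, e1, e2]
  fin_cases a <;> simp [D0] <;> ring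

theorem D1_congr {g g' : Tor M × Fin 4 → ℝ} {z x : Tor M} {R : ℕ}
    (h : ∀ y b, tdist y z ≤ R + 1 → g (y, b) = g' (y, b)) (hx : tdist x z ≤ R) (a : Fin 4) :
    (Dm (1 : Gauge M) *ᵥ g) (x, a) = (Dm (1 : Gauge M) *ᵥ g') (x, a) := by
  have h0 : ∀ b, g (x, b) = g' (x, b) := fun b => h x b (by omega)
  have h1 : ∀ i b, g (x + uv M i, b) = g' (x + uv M i, b) := fun i b =>
    h _ b (le_trans (near_add i) (by omega))
  have h2 : ∀ i b, g (x - uv M i, b) = g' (x - uv M i, b) := fun i b =>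
    h _ b (le_trans (near_sub i) (by omega))
  simp only [D1_apply, h0, h1, h2]

theorem tc_nonneg : 0 ≤ tc := by
  have : (1 : ℝ) ≤ √2 := Real.one_le_sqrt.mpr (by norm_num)
  unfold tc
  linarith

theorem tc_le : tc ≤ 1 := by
  have : √2 ≤ (2 : ℝ) := Real.sqrt_le_iff.mpr (by norm_num)
  unfold tc
  linarith

/-- The operator differs from its constant part by first differences. -/
theorem D1_sub_D0 {g : Tor M × Fin 4 → ℝ} {x : Tor M} {ε : ℝ}
    (h : ∀ i y b, tdist y x ≤ 1 → |dif i g (y, b)| ≤ ε) (a : Fin 4) :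
    |(Dm (1 : Gauge M) *ᵥ g) (x, a) - D0 (fun b => g (x, b)) a| ≤ ε := by
  have h0 : ∀ i b, |g (x + uv M i, b) - g (x, b)| ≤ ε := fun i b =>
    h i x b (by rw [tdist_self]; omega)
  have h1 : ∀ i b, |g (x, b) - g (x - uv M i, b)| ≤ ε := fun i b => by
    have := h i (x - uv M i) b (tdist_sub_uv x i)
    simpa [dif] using this
  have key : ∀ t : ℝ, |t| ≤ ε → |tc * t| ≤ ε := fun t ht => by
    rw [abs_mul, abs_of_nonneg tc_nonneg]
    exact le_trans (mul_le_of_le_one_left (abs_nonneg t) tc_le) ht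
  rw [D1_apply, add_sub_cancel_left]
  refine key _ ?_
  fin_cases a
  · exact h0 0 2
  · exact h0 1 3
  · exact h1 0 0
  · exact h1 1 1

theorem sq2 : √2 * √2 = (2 : ℝ) := Real.mul_self_sqrt (by norm_num)

theorem kv_D0 (v : Fin 4 → ℝ) (a : Fin 2) : ∑ c, kv a c * D0 v c = 0 := by
  have := sq2
  fin_cases a <;> simp [Fin.sum_univ_four, kv, D0]
  · linear_combination (v 2 / 2) * this
  · linear_combination (v 0 / 2) * this

theorem abs_kv_le (a : Fin 2) (c : Fin 4) : |kv a c| ≤ 1 := by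
  have h1 : √2 ≤ (2 : ℝ) := Real.sqrt_le_iff.mpr (by norm_num)
  have h2 : (0 : ℝ) ≤ √2 := Real.sqrt_nonneg 2
  rw [abs_le]
  fin_cases a <;> fin_cases c <;> simp [kv] <;> (try constructor) <;> linarith

theorem abs_mv_le (b i : Fin 2) (c : Fin 4) : |mv b i c| ≤ 1 := by
  have h1 : √2 ≤ (2 : ℝ) := Real.sqrt_le_iff.mpr (by norm_num)
  have h2 : (0 : ℝ) ≤ √2 := Real.sqrt_nonneg 2
  have h3 := sq2
  rw [abs_le]
  fin_cases b <;> fin_cases i <;> fin_cases c <;> simp [mv, nv] <;> (try constructor) <;> nlinarith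

theorem abs_kv_dot {v : Fin 4 → ℝ} {ε : ℝ} (h : ∀ c, |v c| ≤ ε) (a : Fin 2) :
    |∑ c, kv a c * v c| ≤ 4 * ε := by
  refine le_trans (abs_sum_le_sum_abs _ _) ?_
  have : ∀ c ∈ (univ : Finset (Fin 4)), |kv a c * v c| ≤ ε := fun c _ => by
    rw [abs_mul]
    exact le_trans (mul_le_of_le_one_left (abs_nonneg _) (abs_kv_le a c)) (h c)
  simpa using sum_le_card_nsmul _ _ _ this

/-- A vector is bounded by its critical part and its image. -/
theorem abs_le_of_D0 {v : Fin 4 → ℝ} {ε : ℝ} (h : ∀ a, |∑ c, kv a c * v c| ≤ ε)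
    (h' : ∀ c, |D0 v c| ≤ ε) (c : Fin 4) : |v c| ≤ 2 * ε := by
  have h1 : √2 ≤ (2 : ℝ) := Real.sqrt_le_iff.mpr (by norm_num)
  have h2 : (1 : ℝ) ≤ √2 := Real.one_le_sqrt.mpr (by norm_num)
  have k0 := abs_le.mp (h 0)
  have k1 := abs_le.mp (h 1)
  have d0 := abs_le.mp (h' 0)
  have d2 := abs_le.mp (h' 2)
  simp [Fin.sum_univ_four, kv, D0] at k0 k1 d0 d2
  have e0 : 0 ≤ ε := le_trans (abs_nonneg _) (h' 0)
  have a0 : |√2 * v 0| ≤ 2 * ε := by
    rw [abs_le]
    constructor <;> linarith [k0.1, k0.2, d2.1, d2.2]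
  have a2 : |√2 * v 2| ≤ 2 * ε := by
    rw [abs_le]
    constructor <;> linarith [k1.1, k1.2, d0.1, d0.2]
  have key : ∀ t : ℝ, |√2 * t| ≤ 2 * ε → |t| ≤ 2 * ε := fun t ht => by
    rw [abs_mul, abs_of_nonneg (Real.sqrt_nonneg 2)] at ht
    exact le_trans (le_mul_of_one_le_left (abs_nonneg t) h2) ht
  fin_cases c
  · exact key _ a0
  · change |v 1| ≤ 2 * ε
    rw [abs_le]
    constructor <;> linarith [k0.1, k0.2, d2.1, d2.2, k1.1, k1.2, d0.1, d0.2]
  · exact key _ a2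
  · change |v 3| ≤ 2 * ε
    rw [abs_le]
    constructor <;> linarith [k0.1, k0.2, d2.1, d2.2, k1.1, k1.2, d0.1, d0.2]

/-- The powers of the operator, transported to the trivial gauge around `z`. -/
noncomputable def ch (A : Gauge M) (z : Tor M) (g : Tor M × Fin 4 → ℝ) (k : ℕ)
    (s : Tor M × Fin 4) : ℝ := trans A z s.1 * ((Dm A ^ k) *ᵥ g) s

theorem trans_sq {A : Gauge M} (hA : IsSign A) (z y : Tor M) : trans A z y * trans A z y = 1 := by
  rcases trans_sign hA z y with h | h <;> rw [h] <;> norm_num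

omit [NeZero M] in
theorem sign_sq {A : Gauge M} (hA : IsSign A) (e : Tor M × Fin 2) : A e * A e = 1 := by
  rcases hA e with h | h <;> rw [h] <;> norm_num

theorem l2sq_ch {A : Gauge M} (hA : IsSign A) (z : Tor M) (g : Tor M × Fin 4 → ℝ) (k : ℕ)
    (B : Finset (Tor M)) : l2sq B (ch A z g k) = l2sq B ((Dm A ^ k) *ᵥ g) := by
  unfold l2sq ch
  refine sum_congr rfl fun x _ => sum_congr rfl fun a _ => ?_
  have := trans_sq hA z x
  linear_combination ((Dm A ^ k) *ᵥ g) (x, a) ^ 2 * this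

theorem hsq_ch {A : Gauge M} (hA : IsSign A) (z : Tor M) (g : Tor M × Fin 4 → ℝ) (ρ : ℝ)
    (B : Finset (Tor M)) : hsq A ρ B g = ∑ k ∈ range 5, ρ ^ (2 * k) * l2sq B (ch A z g k) := by
  simp only [hsq, l2sq_ch hA]

theorem ch_sub (A : Gauge M) (z : Tor M) (g g' : Tor M × Fin 4 → ℝ) (k : ℕ)
    (s : Tor M × Fin 4) : ch A z (g - g') k s = ch A z g k s - ch A z g' k s := by
  simp only [ch, mulVec_sub, Pi.sub_apply, mul_sub]

theorem ch_chain {A : Gauge M} (hA : IsSign A) {z : Tor M} {ρ : ℕ} (hρ : 2 * ρ + 3 ≤ M)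
    (hF : Flat A z ρ) (g : Tor M × Fin 4 → ℝ) (k : ℕ) {x : Tor M} (hx : tdist x z + 1 ≤ ρ)
    (a : Fin 4) : (Dm (1 : Gauge M) *ᵥ ch A z g k) (x, a) = ch A z g (k + 1) (x, a) := by
  have h1 : ∀ i, trans A z (x + uv M i) = trans A z x * A (x, i) := fun i =>
    trans_gauge hA hρ hF (by omega) (le_trans (near_add i) hx)
  have h2 : ∀ i, trans A z (x - uv M i) = trans A z x * A (x - uv M i, i) := fun i => by
    have h3 := trans_gauge hA hρ hF (x := x - uv M i) (i := i) (le_trans (near_sub i) hx)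
      (by rw [sub_add_cancel]; omega)
    rw [sub_add_cancel] at h3
    have h4 := sign_sq hA (x - uv M i, i)
    rw [h3]
    linear_combination (-trans A z (x - uv M i)) * h4
  rw [ch, pow_succ', ← mulVec_mulVec, Dm_apply, Dm_apply]
  simp only [ch, h1, h2, Pi.one_apply, one_mul, mul_add, mul_sum, mul_sub, mul_ite, mul_zero]
  congr 1
  · exact sum_congr rfl fun b _ => by ring
  · split_ifs <;> ring

theorem tdist_add_prj (x : Tor M) (v : ℤ × ℤ) :
    tdist (x + prj M v) x ≤ max v.1.natAbs v.2.natAbs := by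
  have h := tdist_prj_le (M := M) v 0
  have e : prj M 0 = 0 := by simp [prj]
  rw [e, ← tdist_add _ _ x, zero_add, add_comm] at h
  simpa using h

omit [NeZero M] in
theorem prj_add_uv0 (v : ℤ × ℤ) : prj M (v.1 + 1, v.2) = prj M v + uv M 0 := by
  simp [prj, uv]

omit [NeZero M] in
theorem prj_add_uv1 (v : ℤ × ℤ) : prj M (v.1, v.2 + 1) = prj M v + uv M 1 := by
  simp [prj, uv]

/-- Propagation along paths in a square. -/
theorem path_le {w : Tor M → ℝ} {x : Tor M} {R : ℕ} {ε : ℝ}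
    (h : ∀ i y, tdist y x ≤ R → |w (y + uv M i) - w y| ≤ ε) {y : Tor M} (hy : tdist y x ≤ R) :
    |w y - w x| ≤ 2 * R * ε := by
  have e0 : 0 ≤ ε := le_trans (abs_nonneg _) (h 0 x (by rw [tdist_self]; omega))
  have key : ∀ n : ℕ, ∀ a b : ℤ, a.natAbs ≤ R → b.natAbs ≤ R → a.natAbs + b.natAbs = n →
      |w (x + prj M (a, b)) - w x| ≤ n * ε := by
    intro n
    induction n with
    | zero =>
      intro a b _ _ hn
      have ha : a = 0 := by omega
      have hb : b = 0 := by omega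
      simp [ha, hb, prj, Prod.mk_zero_zero]
    | succ n ih =>
      intro a b ha hb hn
      have tri : ∀ p q : ℝ, |p - q| ≤ ε → |q - w x| ≤ n * ε → |p - w x| ≤ (n + 1 : ℕ) * ε := by
        intro p q h1 h2
        have := abs_sub_le p q (w x)
        push_cast
        linarith
      have st0 : ∀ a' : ℤ, a'.natAbs ≤ R →
          |w (x + prj M (a' + 1, b)) - w (x + prj M (a', b))| ≤ ε := fun a' ha' => by
        have := h 0 (x + prj M (a', b)) (le_trans (tdist_add_prj x _) (max_le ha' hb))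
        rwa [add_assoc, ← prj_add_uv0] at this
      have st1 : ∀ b' : ℤ, b'.natAbs ≤ R →
          |w (x + prj M (a, b' + 1)) - w (x + prj M (a, b'))| ≤ ε := fun b' hb' => by
        have := h 1 (x + prj M (a, b')) (le_trans (tdist_add_prj x _) (max_le ha hb'))
        rwa [add_assoc, ← prj_add_uv1] at this
      rcases lt_trichotomy a 0 with h1 | h1 | h1
      · refine tri _ _ ?_ (ih (a + 1) b (by omega) hb (by omega))
        rw [abs_sub_comm]
        exact st0 a ha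
      · rcases lt_trichotomy b 0 with h2 | h2 | h2
        · refine tri _ _ ?_ (ih a (b + 1) ha (by omega) (by omega))
          rw [abs_sub_comm]
          exact st1 b hb
        · omega
        · refine tri _ _ ?_ (ih a (b - 1) ha (by omega) (by omega))
          simpa using st1 (b - 1) (by omega)
      · refine tri _ _ ?_ (ih (a - 1) b (by omega) hb (by omega))
        simpa using st0 (a - 1) (by omega)
  have h1 : (lft (y - x)).1.natAbs ≤ R := le_trans (le_max_left _ _) hy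
  have h2 : (lft (y - x)).2.natAbs ≤ R := le_trans (le_max_right _ _) hy
  have h3 := key _ _ _ h1 h2 rfl
  rw [Prod.mk.eta, prj_lft, add_sub_cancel] at h3
  refine le_trans h3 (mul_le_mul_of_nonneg_right ?_ e0)
  have : (lft (y - x)).1.natAbs + (lft (y - x)).2.natAbs ≤ 2 * R := by omega
  exact_mod_cast this

omit [NeZero M] in
theorem l2sq_nonneg (B : Finset (Tor M)) (g : Tor M × Fin 4 → ℝ) : 0 ≤ l2sq B g :=
  sum_nonneg fun _ _ => sum_nonneg fun _ _ => sq_nonneg _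

omit [NeZero M] in
theorem l2sq_mono {B B' : Finset (Tor M)} (h : B ⊆ B') (g : Tor M × Fin 4 → ℝ) :
    l2sq B g ≤ l2sq B' g :=
  sum_le_sum_of_subset_of_nonneg h fun _ _ _ => sum_nonneg fun _ _ => sq_nonneg _

theorem mem_ball {z x : Tor M} {r : ℕ} : x ∈ ball z r ↔ tdist x z ≤ r := by
  simp [ball]

theorem ball_mono (z : Tor M) {r r' : ℕ} (h : r ≤ r') : ball z r ⊆ ball z r' :=
  fun _ hx => mem_ball.mpr (le_trans (mem_ball.mp hx) h)

omit [NeZero M] in
theorem sq_le_l2sq {B : Finset (Tor M)} (g : Tor M × Fin 4 → ℝ) {x : Tor M} (hx : x ∈ B)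
    (a : Fin 4) : g (x, a) ^ 2 ≤ l2sq B g :=
  le_trans (single_le_sum (f := fun a => g (x, a) ^ 2) (fun _ _ => sq_nonneg _) (mem_univ a))
    (single_le_sum (f := fun x => ∑ a, g (x, a) ^ 2)
      (fun _ _ => sum_nonneg fun _ _ => sq_nonneg _) hx)

theorem l2sq_ball_le {g : Tor M × Fin 4 → ℝ} {z : Tor M} {ℓ : ℕ} (hℓ : 1 ≤ ℓ) {t : ℝ}
    (h : ∀ x a, tdist x z ≤ 2 * ℓ → g (x, a) ^ 2 ≤ t) :
    l2sq (ball z (2 * ℓ)) g ≤ 100 * ℓ ^ 2 * t := by
  have t0 : 0 ≤ t := le_trans (sq_nonneg _) (h z 0 (by rw [tdist_self]; omega))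
  have h1 : ∀ x ∈ ball z (2 * ℓ), ∑ a, g (x, a) ^ 2 ≤ 4 * t := fun x hx => by
    simpa using sum_le_card_nsmul univ (fun a => g (x, a) ^ 2) t
      (fun a _ => h x a (mem_ball.mp hx))
  refine le_trans (sum_le_card_nsmul _ _ _ h1) ?_
  have h2 : (ball z (2 * ℓ)).card ≤ 25 * ℓ ^ 2 := by
    refine le_trans (card_ball_le z _) ?_
    calc (2 * (2 * ℓ) + 1) ^ 2 ≤ (5 * ℓ) ^ 2 := Nat.pow_le_pow_left (by omega) 2
      _ = _ := by ring
  have h3 : ((ball z (2 * ℓ)).card : ℝ) ≤ 25 * ℓ ^ 2 := by exact_mod_cast h2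
  rw [nsmul_eq_mul]
  nlinarith

end Vale.Agent.P144Z.E3
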