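import Vale.Agent.P144Z.E3.Basic
import Vale.Agent.P144Z.E1.Main
import Vale.Agent.P144Z.E2.Main

/-! The Caccioppoli inequality, its iteration, and pointwise bounds. -/

namespace Vale.Agent.P144Z.E3

open Finset Matrix

theorem cacc : ∃ C : ℝ, 1 ≤ C ∧ ∀ (M : ℕ) [NeZero M] (z : Tor M) (r w : ℕ), 1 ≤ w →
    ∀ φ ψ : Tor M × Fin 4 → ℝ,
    (∀ x a, tdist x z ≤ r + w → (Dm (1 : Gauge M) *ᵥ φ) (x, a) = ψ (x, a)) → ∀ i,
    l2sq (ball z r) (dif i φ) ≤ C * (l2sq (ball z (r + 1 + w)) φ / w ^ 2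
      + l2sq (ball z (r + 1 + w)) ψ) := by
  obtain ⟨C₁, hC₁, h₁⟩ := energy_b
  obtain ⟨C₂, hC₂, h₂⟩ := l2sq_cutoff
  refine ⟨2 * C₁ * C₂, by nlinarith, ?_⟩
  intro M _ z r w hw φ ψ hD i
  obtain ⟨η, η01, η1, η0, ηL⟩ := exists_cutoff z (r + 1) hw
  have hA : IsSign (1 : Gauge M) := fun _ => Or.inl rfl
  have e1 := h₁ M 1 hA (fun s => η s.1 * φ s) (fun f hf => by
    simp only [flux, Pi.one_apply] at hf
    norm_num at hf)
  have e2 := h₂ M 1 hA η (1 / w) ηL (ball z (r + 1 + w)) (fun x j hx => by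
    have a1 := near_add (x := x) (z := z) j
    have a2 := near_sub (x := x + uv M j) (z := z) j
    rw [add_sub_cancel_right] at a2
    rw [mem_ball, mem_ball]
    by_contra hc
    apply hx
    rw [η0 _ (by omega), η0 _ (by omega)]) φ
  have a1 : l2sq (ball z r) (dif i φ) ≤ gradsq 1 univ (fun s => η s.1 * φ s) := by
    unfold l2sq gradsq
    refine le_trans (sum_le_sum fun x hx => ?_) (sum_le_sum_of_subset_of_nonneg (subset_univ _)
      fun _ _ _ => sum_nonneg fun _ _ => sum_nonneg fun _ _ => sq_nonneg _)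
    have b1 := mem_ball.mp hx
    refine le_trans (le_of_eq ?_) (single_le_sum (f := fun j => ∑ a, ((1 : Gauge M) (x, j)
      * (η (x + uv M j) * φ (x + uv M j, a)) - η x * φ (x, a)) ^ 2)
      (fun _ _ => sum_nonneg fun _ _ => sq_nonneg _) (mem_univ i))
    rw [η1 x (by omega), η1 _ (le_trans (near_add i) (by omega))]
    simp [dif]
  have a2 : l2sq univ (fun s => η s.1 * (Dm (1 : Gauge M) *ᵥ φ) s)
      ≤ l2sq (ball z (r + 1 + w)) ψ := by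
    unfold l2sq
    rw [← sum_subset (subset_univ (ball z (r + w)))]
    · refine le_trans (sum_le_sum fun x hx => sum_le_sum fun a _ => ?_)
        (l2sq_mono (ball_mono z (by omega)) ψ)
      dsimp only
      rw [hD x a (mem_ball.mp hx), mul_pow]
      refine mul_le_of_le_one_left (sq_nonneg _) ?_
      have := η01 x
      nlinarith
    · intro x _ hx
      rw [mem_ball] at hx
      simp [η0 x (by omega)]
  have a3 : l2sq univ (Dm (1 : Gauge M) *ᵥ fun s => η s.1 * φ s) ≤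
      2 * l2sq univ (Dm (1 : Gauge M) *ᵥ (fun s => η s.1 * φ s) -
        fun s => η s.1 * (Dm (1 : Gauge M) *ᵥ φ) s)
      + 2 * l2sq univ (fun s => η s.1 * (Dm (1 : Gauge M) *ᵥ φ) s) := by
    unfold l2sq
    simp only [mul_sum, ← sum_add_distrib, Pi.sub_apply]
    refine sum_le_sum fun x _ => sum_le_sum fun a _ => ?_
    nlinarith [sq_nonneg ((Dm (1 : Gauge M) *ᵥ fun s => η s.1 * φ s) (x, a)
      - 2 * (η x * (Dm (1 : Gauge M) *ᵥ φ) (x, a)))]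
  have p1 := l2sq_nonneg (ball z (r + 1 + w)) ψ
  have e3 : C₂ * (1 / (w : ℝ)) ^ 2 * l2sq (ball z (r + 1 + w)) φ
      = C₂ * (l2sq (ball z (r + 1 + w)) φ / w ^ 2) := by ring
  rw [e3] at e2
  have a4 : l2sq (ball z (r + 1 + w)) ψ ≤ C₂ * l2sq (ball z (r + 1 + w)) ψ :=
    le_mul_of_one_le_left p1 hC₂
  refine le_trans a1 (le_trans e1 ?_)
  calc C₁ * l2sq univ (Dm (1 : Gauge M) *ᵥ fun s => η s.1 * φ s)
      ≤ C₁ * (2 * (C₂ * (l2sq (ball z (r + 1 + w)) φ / w ^ 2))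
        + 2 * (C₂ * l2sq (ball z (r + 1 + w)) ψ)) :=
        mul_le_mul_of_nonneg_left (by linarith) (by linarith)
    _ = _ := by ring

/-- A chain of fields after `j` differences, with its bound. -/
structure Lev {M : ℕ} [NeZero M] (z : Tor M) (ρ j : ℕ) (H : ℝ) (u : ℕ → Tor M × Fin 4 → ℝ) :
    Prop where
  chain : ∀ k x a, tdist x z + j + 1 ≤ ρ → (Dm (1 : Gauge M) *ᵥ u k) (x, a) = u (k + 1) (x, a)
  bd : ∀ k, j + k ≤ 4 → (ρ : ℝ) ^ (2 * (j + k)) * l2sq (ball z (ρ - j * (ρ / 8))) (u k) ≤ H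

theorem lev_step : ∃ C : ℝ, 1 ≤ C ∧ ∀ (M : ℕ) [NeZero M] (z : Tor M) (ρ j : ℕ) (H : ℝ)
    (u : ℕ → Tor M × Fin 4 → ℝ), 16 ≤ ρ → Lev z ρ j H u → ∀ i,
    Lev z ρ (j + 1) (C * H) (fun k => dif i (u k)) := by
  obtain ⟨C, hC, h⟩ := cacc
  refine ⟨530 * C, by linarith, ?_⟩
  intro M _ z ρ j H u hρ hu i
  refine ⟨fun k x a hx => ?_, fun k hk => ?_⟩
  · have := near_add (x := x) (z := z) i
    rw [D1_dif, hu.chain k _ a (by omega), hu.chain k _ a (by omega)]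
    rfl
  · have hj : j ≤ 3 := by omega
    have e1 : ρ - (j + 1) * (ρ / 8) + 1 + (ρ / 8 - 1) = ρ - j * (ρ / 8) := by
      interval_cases j <;> omega
    have a1 := h M z (ρ - (j + 1) * (ρ / 8)) (ρ / 8 - 1) (by omega) (u k) (u (k + 1))
      (fun x a hx => hu.chain k x a (by interval_cases j <;> omega)) i
    rw [e1] at a1
    have b1 := hu.bd k (by omega)
    have b2 := hu.bd (k + 1) (by omega)
    have c1 : ρ ≤ 23 * (ρ / 8 - 1) := by omega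
    have c2 : (ρ : ℝ) ≤ 23 * ((ρ / 8 - 1 : ℕ) : ℝ) := by exact_mod_cast c1
    have c3 : (0 : ℝ) < ((ρ / 8 - 1 : ℕ) : ℝ) := by
      have : 0 < ρ / 8 - 1 := by omega
      exact_mod_cast this
    have p1 := l2sq_nonneg (ball z (ρ - j * (ρ / 8))) (u k)
    generalize l2sq (ball z (ρ - j * (ρ / 8))) (u k) = X at a1 b1 p1
    generalize l2sq (ball z (ρ - j * (ρ / 8))) (u (k + 1)) = Y at a1 b2
    generalize ((ρ / 8 - 1 : ℕ) : ℝ) = w at a1 c2 c3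
    have e2 : 2 * (j + 1 + k) = 2 * (j + (k + 1)) := by ring
    have e3 : (ρ : ℝ) ^ (2 * (j + (k + 1))) = (ρ : ℝ) ^ (2 * (j + k)) * ρ ^ 2 := by ring
    have d1 : (ρ : ℝ) ^ 2 * (X / w ^ 2) ≤ 529 * X := by
      rw [← mul_div_assoc, div_le_iff₀ (by positivity)]
      have : (ρ : ℝ) ^ 2 ≤ (23 * w) ^ 2 := pow_le_pow_left₀ (by positivity) c2 2
      nlinarith
    have d2 : (ρ : ℝ) ^ (2 * (j + (k + 1))) * (X / w ^ 2) ≤ 529 * H := by
      rw [e3, mul_assoc]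
      refine le_trans (mul_le_mul_of_nonneg_left d1 (by positivity)) ?_
      linarith
    rw [e2]
    refine le_trans (mul_le_mul_of_nonneg_left a1 (by positivity)) ?_
    calc (ρ : ℝ) ^ (2 * (j + (k + 1))) * (C * (X / w ^ 2 + Y))
        = C * ((ρ : ℝ) ^ (2 * (j + (k + 1))) * (X / w ^ 2)
          + (ρ : ℝ) ^ (2 * (j + (k + 1))) * Y) := by ring
      _ ≤ C * (529 * H + H) := mul_le_mul_of_nonneg_left (by linarith) (by linarith)
      _ = _ := by ring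

theorem lev_sup : ∃ C : ℝ, 1 ≤ C ∧ ∀ (M : ℕ) [NeZero M] (z : Tor M) (ρ j : ℕ) (H : ℝ)
    (u : ℕ → Tor M × Fin 4 → ℝ), 16 ≤ ρ → 2 * ρ + 3 ≤ M → Lev z ρ j H u → ∀ k, j + k ≤ 2 →
    ∀ x a, 2 * tdist x z ≤ ρ → u k (x, a) ^ 2 * (ρ : ℝ) ^ (2 * (j + k) + 2) ≤ C * H := by
  obtain ⟨C, hC, h⟩ := lev_step
  obtain ⟨S, hS, hs⟩ := sob_sup
  refine ⟨S * (4 + 2 * C + C * C), by nlinarith, ?_⟩
  intro M _ z ρ j H u hρ hM hu k hk x a hx
  have hj : j ≤ 2 := by omega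
  have l0 := h M z ρ j H u hρ hu 0
  have l1 := h M z ρ j H u hρ hu 1
  have l2 := h M z ρ (j + 1) _ _ hρ l1 0
  set R := ρ - 4 * (ρ / 8) with hR
  have cmp : ∀ (v : Tor M × Fin 4 → ℝ) (n : ℕ), n ≤ 4 →
      ∑ y ∈ ball z R, v (y, a) ^ 2 ≤ l2sq (ball z (ρ - n * (ρ / 8))) v := by
    intro v n hn
    refine le_trans (sum_le_sum fun y _ => single_le_sum (f := fun a => v (y, a) ^ 2)
      (fun _ _ => sq_nonneg _) (mem_univ a)) (l2sq_mono (ball_mono z ?_) v)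
    have : n * (ρ / 8) ≤ 4 * (ρ / 8) := Nat.mul_le_mul_right _ hn
    omega
  have pw : ∀ n : ℕ, (0 : ℝ) ≤ (ρ : ℝ) ^ n := fun n => by positivity
  have b0 := le_trans (mul_le_mul_of_nonneg_left (cmp _ j (by omega)) (pw _)) (hu.bd k (by omega))
  have b1 := le_trans (mul_le_mul_of_nonneg_left (cmp _ (j + 1) (by omega)) (pw _))
    (l0.bd k (by omega))
  have b2 := le_trans (mul_le_mul_of_nonneg_left (cmp _ (j + 1) (by omega)) (pw _))
    (l1.bd k (by omega))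
  have b3 := le_trans (mul_le_mul_of_nonneg_left (cmp _ (j + 1 + 1) (by omega)) (pw _))
    (l2.bd k (by omega))
  have s1 := hs M z x R (by omega) (by omega) (by omega) (fun y => u k (y, a))
  simp only [sum_add_distrib, ← sum_div, ← mul_sum] at s1
  have e3 : ∀ y, dif 0 (dif 1 (u k)) (y, a) = u k (y + uv M 0 + uv M 1, a) - u k (y + uv M 0, a)
      - u k (y + uv M 1, a) + u k (y, a) := fun y => by
    simp only [dif]
    ring
  simp only [e3] at b3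
  simp only [dif] at b1 b2
  have p0 : 0 ≤ ∑ y ∈ ball z R, u k (y, a) ^ 2 := sum_nonneg fun _ _ => sq_nonneg _
  have p3 : 0 ≤ ∑ y ∈ ball z R, (u k (y + uv M 0 + uv M 1, a) - u k (y + uv M 0, a)
      - u k (y + uv M 1, a) + u k (y, a)) ^ 2 := sum_nonneg fun _ _ => sq_nonneg _
  generalize ∑ y ∈ ball z R, u k (y, a) ^ 2 = X₀ at b0 s1 p0
  generalize ∑ y ∈ ball z R, (u k (y + uv M 0, a) - u k (y, a)) ^ 2 = X₁ at b1 s1
  generalize ∑ y ∈ ball z R, (u k (y + uv M 1, a) - u k (y, a)) ^ 2 = X₂ at b2 s1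
  generalize ∑ y ∈ ball z R, (u k (y + uv M 0 + uv M 1, a) - u k (y + uv M 0, a)
      - u k (y + uv M 1, a) + u k (y, a)) ^ 2 = X₃ at b3 s1 p3
  have r1 : (ρ : ℝ) ≤ 2 * R := by
    have : ρ ≤ 2 * R := by omega
    exact_mod_cast this
  have r2 : (R : ℝ) ≤ ρ := by
    have : R ≤ ρ := by omega
    exact_mod_cast this
  have r0 : (0 : ℝ) < R := by
    have : 0 < R := by omega
    exact_mod_cast this
  have c0 : (ρ : ℝ) ^ 2 * (X₀ / R ^ 2) ≤ 4 * X₀ := by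
    rw [← mul_div_assoc, div_le_iff₀ (by positivity)]
    have : (ρ : ℝ) ^ 2 ≤ (2 * R) ^ 2 := pow_le_pow_left₀ (by positivity) r1 2
    nlinarith
  have c3 : (R : ℝ) ^ 2 * X₃ ≤ (ρ : ℝ) ^ 2 * X₃ :=
    mul_le_mul_of_nonneg_right (pow_le_pow_left₀ r0.le r2 2) p3
  have d0 := mul_le_mul_of_nonneg_left c0 (pw (2 * (j + k)))
  have d3 := mul_le_mul_of_nonneg_left c3 (pw (2 * (j + k) + 2))
  have f1 : (ρ : ℝ) ^ (2 * (j + 1 + k)) = (ρ : ℝ) ^ (2 * (j + k)) * ρ ^ 2 := by ring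
  have f2 : (ρ : ℝ) ^ (2 * (j + 1 + 1 + k)) = (ρ : ℝ) ^ (2 * (j + k)) * ρ ^ 2 * ρ ^ 2 := by ring
  have f3 : (ρ : ℝ) ^ (2 * (j + k) + 2) = (ρ : ℝ) ^ (2 * (j + k)) * ρ ^ 2 := by ring
  rw [f1] at b1 b2
  rw [f2] at b3
  rw [f3] at d3 ⊢
  refine le_trans (mul_le_mul_of_nonneg_right s1 (by positivity)) ?_
  rw [mul_assoc, mul_assoc]
  refine mul_le_mul_of_nonneg_left ?_ (by linarith)
  linarith

theorem lev_ch {M : ℕ} [NeZero M] {A : Gauge M} (hA : IsSign A) {z : Tor M} {ρ : ℕ}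
    (hρ : 2 * ρ + 3 ≤ M) (hF : Flat A z ρ) (g : Tor M × Fin 4 → ℝ) :
    Lev z ρ 0 (hsq A ρ (ball z ρ) g) (ch A z g) := by
  refine ⟨fun k x a hx => ch_chain hA hρ hF g k hx a, fun k hk => ?_⟩
  rw [hsq_ch hA z, zero_add, zero_mul, Nat.sub_zero]
  exact single_le_sum (f := fun k => (ρ : ℝ) ^ (2 * k) * l2sq (ball z ρ) (ch A z g k))
    (fun k _ => mul_nonneg (by positivity) (l2sq_nonneg _ _)) (mem_range.mpr (by omega))

/-- All pointwise bounds in a flat square. -/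
theorem sup_all : ∃ C : ℝ, 1 ≤ C ∧ ∀ (M : ℕ) [NeZero M] (A : Gauge M), IsSign A →
    ∀ (z : Tor M) (ρ : ℕ), 16 ≤ ρ → 2 * ρ + 3 ≤ M → Flat A z ρ → ∀ g : Tor M × Fin 4 → ℝ,
    ∀ x a, 2 * tdist x z ≤ ρ →
      (∀ k, k ≤ 2 → ch A z g k (x, a) ^ 2 * (ρ : ℝ) ^ (2 * k + 2) ≤ C * hsq A ρ (ball z ρ) g) ∧
      (∀ k i, k ≤ 1 → dif i (ch A z g k) (x, a) ^ 2 * (ρ : ℝ) ^ (2 * k + 4)
        ≤ C * hsq A ρ (ball z ρ) g) ∧
      ∀ i j, dif j (dif i (ch A z g 0)) (x, a) ^ 2 * (ρ : ℝ) ^ 6 ≤ C * hsq A ρ (ball z ρ) g := by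
  obtain ⟨C, hC, h⟩ := lev_step
  obtain ⟨S, hS, hs⟩ := lev_sup
  refine ⟨S * C * C, by nlinarith [mul_le_mul hS hC zero_le_one (by linarith)], ?_⟩
  intro M _ A hA z ρ hρ hM hF g x a hx
  have l0 := lev_ch hA hM hF g
  have H0 : 0 ≤ hsq A ρ (ball z ρ) g :=
    sum_nonneg fun k _ => mul_nonneg (by positivity) (l2sq_nonneg _ _)
  generalize hsq A ρ (ball z ρ) g = H at l0 H0
  have m1 : S * H ≤ S * (C * H) :=
    mul_le_mul_of_nonneg_left (le_mul_of_one_le_left H0 hC) (by linarith)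
  have m2 : S * (C * H) ≤ S * (C * (C * H)) :=
    mul_le_mul_of_nonneg_left (le_mul_of_one_le_left (by positivity) hC) (by linarith)
  refine ⟨fun k hk => ?_, fun k i hk => ?_, fun i j => ?_⟩
  · have := hs M z ρ 0 H _ hρ hM l0 k (by omega) x a hx
    rw [zero_add] at this
    linarith
  · have := hs M z ρ 1 _ _ hρ hM (h M z ρ 0 H _ hρ l0 i) k (by omega) x a hx
    rw [show 2 * (1 + k) + 2 = 2 * k + 4 by ring] at this
    linarith
  · have := hs M z ρ 2 _ _ hρ hM (h M z ρ 1 _ _ hρ (h M z ρ 0 H _ hρ l0 i) j) 0 (by omega) x a hx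
    norm_num at this
    linarith

end Vale.Agent.P144Z.E3
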